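import Vale.Agent.P291Z.AS2

/-!
# Global quotient orbifolds: fundamental class, vector bundles, Thom and Euler cocycles

A group is presented as the unit group of a finite dimensional normed algebra `A` (a product of
endomorphism algebras); `act a` is the action of `a`. Cohomology is Alexander-Spanier cohomology of
the orbit space with complex coefficients.
-/

namespace Vale.Agent.P269

open P291Z Set Function Topology

variable {A W P : Type} [NormedRing A] [NormedAlgebra ℂ A] [NormedAddCommGroup W] [NormedSpace ℂ W]

/-- The orbit space `S / Aˣ`. -/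
def Quo (act : A → W → W) (S : Set W) : Type :=
  Quot fun x y : S => ∃ a, IsUnit a ∧ y.1 = act a x.1

instance (act : A → W → W) (S : Set W) : TopologicalSpace (Quo act S) :=
  inferInstanceAs (TopologicalSpace (Quot _))

/-- The orbit of a point. -/
def Quo.mk (act : A → W → W) {S : Set W} (x : S) : Quo act S := Quot.mk _ x

/-- A representative of an orbit. -/
noncomputable def Quo.out {act : A → W → W} {S : Set W} (z : Quo act S) : S := Quot.out z

/-- The map of orbit spaces induced by an inclusion. -/
def Quo.incl (act : A → W → W) {S S' : Set W} (h : S ⊆ S') : Quo act S → Quo act S' :=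
  Quot.map (inclusion h) fun _ _ e => e

/-- A holomorphic chart of the orbit space, centred at a point with trivial stabiliser: a holomorphic
map `φ` from an open neighbourhood `U` of `0` in `ℂ^d` to `S`, transverse to the orbit, that induces
an open embedding of `U` in the orbit space. -/
structure IsChart (act : A → W → W) (S : Set W) (d : ℕ) (U : Set (Fin d → ℂ)) (φ : U → S) :
    Prop where
  isOpen : IsOpen U
  zero_mem : 0 ∈ U
  holo : ∃ Φ : (Fin d → ℂ) → W, AnalyticOnNhd ℂ Φ U ∧ (∀ z : U, (φ z : W) = Φ z) ∧
    Injective (fderiv ℂ (fun y : A × (Fin d → ℂ) => act y.1 (Φ y.2)) (1, 0)) ∧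
    ∀ a, IsUnit a → act a (Φ 0) = Φ 0 → a = 1
  emb : IsOpenEmbedding fun z => Quo.mk act (φ z)

/-- `β` is the fundamental class of the orbit space, a complex orbifold of pure dimension `d` with
trivial generic stabiliser: it has degree `2 d` and takes the value one on the orientation cocycle
at the centre of every chart. -/
def IsFund (act : A → W → W) (S : Set W) (β : BM (Quo act S)) : Prop :=
  ∃ d : ℕ, BM.IsDeg (2 * d) β ∧ ∀ d' U φ (h : IsChart act S d' U φ), d' = d ∧
    ∀ a ∈ Zc (Quo act S), supp a ⊆ {Quo.mk act (φ ⟨0, h.zero_mem⟩)} →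
      Cohom {z | z.1 = 0} (pull (fun z => Quo.mk act (φ z)) a) (pull Subtype.val (tau d')) →
        ev β a = 1

variable [AddCommGroup P] [Module ℂ P] [TopologicalSpace P]

/-- The total space of the orbifold vector bundle over `S / Aˣ` with fibres `B x / N x`, where
`N x ⊆ B x` are subspaces of a vector space `P` on which `a` acts by `ρ a`. -/
def Tot (act : A → W → W) (ρ : A → P → P) (S : Set W) (B N : W → Submodule ℂ P) : Type :=
  Quot fun x y : {z : W × P // z.1 ∈ S ∧ z.2 ∈ B z.1} =>
    ∃ a, IsUnit a ∧ y.1.1 = act a x.1.1 ∧ y.1.2 - ρ a x.1.2 ∈ N y.1.1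

variable (act : A → W → W) (ρ : A → P → P) (S : Set W) (B N : W → Submodule ℂ P)

instance : TopologicalSpace (Tot act ρ S B N) := inferInstanceAs (TopologicalSpace (Quot _))

/-- `t` is a Thom cocycle of that bundle. -/
def IsThomOf (t : Coch (Tot act ρ S B N)) : Prop :=
  IsThom {z | ∃ x, x.1.2 = 0 ∧ z = Quot.mk _ x}
    (fun r φ => ∃ x ∈ S, ∃ ℓ : (Fin r → ℂ) →ₗ[ℂ] P, (∀ v, ℓ v ∈ N x → v = 0) ∧
      LinearMap.range ℓ ⊔ N x = B x ∧ ∀ v, ∃ h, φ v = Quot.mk _ ⟨(x, ℓ v), h⟩) t

open Classical in
/-- The section of that bundle given by an equivariant map `σ` with `σ x ∈ B x`. -/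
noncomputable def sec (σ : W → P) (z : Quo act S) : Tot act ρ S B N :=
  Quot.mk _ ⟨(z.out.1, if σ z.out.1 ∈ B z.out.1 then σ z.out.1 else 0), z.out.2, by
    split_ifs with h
    exacts [h, zero_mem _]⟩

/-- A cocycle representing the Euler class of that bundle (for a line bundle, `c₁`): the pull-back
of a Thom cocycle along the zero section. -/
noncomputable def eulerC : Coch (Quo act S) :=
  pull (sec act ρ S B N 0) (Classical.epsilon (IsThomOf act ρ S B N))

end Vale.Agent.P269
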