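import Vale.Agent.P269.Defs.Chart

/-!
# Complete intersections, Hodge types, supercommutative series, Virasoro operators
-/

namespace Vale.Agent.P269

open P291Z Set Function Topology Filter MvPolynomial

/-- The subvariety of `ℙ^N` cut out by homogeneous polynomials `F k`. -/
def ci {N c : ℕ} (F : Fin c → MvPolynomial (Fin (N + 1)) ℂ) : Tgt Unit (Fin (N + 1)) (Fin c) where
  w := fun _ _ => 1
  U := {0}ᶜ
  F := F
  θ := fun _ => 3

open Classical in
/-- The class of a cocycle. -/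
noncomputable def cls {Y : Type} [TopologicalSpace Y] (a : Coch Y) : H Y :=
  if h : a ∈ Zs Y then H.mk ⟨a, h⟩ else 0

variable {R J K : Type} [Fintype R] [Fintype J] [Fintype K]

namespace Tgt

variable (T : Tgt R J K)

/-- The integral over the target. -/
noncomputable def int (c : H T.X) : ℂ := ev (Classical.epsilon (IsFund T.act T.cone)) (rep c)

/-- The tangent space of the cone. -/
def tan (x : J → ℂ) : Set (J → ℂ) :=
  {v | ∀ k, ∑ j, v j * eval x (pderiv j (T.F k)) = 0}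

/-- `c₁(TX) = - c₁(K_X)` for a target of dimension `n`. The fibre of `K_X` at `x` is the space of
alternating `n`-forms on the tangent space of the cone that vanish on the directions of the orbit. -/
noncomputable def c1 (n : ℕ) : H T.X :=
  -cls (eulerC T.act (fun t (ω : (J → ℂ) [⋀^Fin n]→L[ℂ] ℂ) =>
      ω.compContinuousLinearMap (.pi fun j => (∏ i, t i ^ T.w j i)⁻¹ • .proj j)) T.cone
    (fun x => ⨅ v ∈ {v : Fin n → J → ℂ | (∀ s, v s ∈ T.tan x) ∧
      ∃ s i, v s = fun j => T.w j i * x j}, LinearMap.ker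
        (ContinuousAlternatingMap.apply ℂ (J → ℂ) ℂ v).toLinearMap)
    fun x => ⨅ v ∈ {v : Fin n → J → ℂ | ∀ s, v s ∈ T.tan x}, LinearMap.ker
      (ContinuousAlternatingMap.apply ℂ (J → ℂ) ℂ v).toLinearMap)

/-- The class `c` lies in `H^{p,q}`: it has a cocycle `a` of degree `p + q` that is smooth near the
diagonal and whose differential form `∑ sign σ ∂_{v σ 1} ⋯ ∂_{v σ k} a(x, ·, …, ·)` (the de Rham
representative of `c`, pulled back to the cone) has type `(p, q)`. -/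
def IsHodge (p q : ℕ) (c : H T.X) : Prop :=
  ∃ a : Zs T.X, IsDeg (p + q) a.1 ∧ H.mk a = c ∧ ∀ x : T.cone,
    ∃ f : (Fin (p + q + 1) → J → ℂ) → ℂ, ContDiff ℝ (⊤ : ℕ∞) f ∧
      (∀ᶠ z : Fin (p + q + 1) → T.cone in 𝓝 fun _ => x,
        f (fun i => z i) = a.1.1 (List.ofFn fun i => Quo.mk T.act (z i))) ∧
      ∀ (v : Fin (p + q) → J → ℂ) (s : ℂ), (∀ i, v i ∈ T.tan x) →
        ∑ σ : Equiv.Perm (Fin (p + q)), (Equiv.Perm.sign σ : ℤ) •
          iteratedFDeriv ℝ (p + q) f (fun _ => x) (fun i => Pi.single i.succ (s • v (σ i))) =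
        s ^ p * (starRingEnd ℂ s) ^ q * ∑ σ : Equiv.Perm (Fin (p + q)), (Equiv.Perm.sign σ : ℤ) •
          iteratedFDeriv ℝ (p + q) f (fun _ => x) (fun i => Pi.single i.succ (v (σ i)))

end Tgt

/-- Formal series in supercommuting variables `t^a_m`, `(m, a) : ℕ × Fin B`, Novikov variables
`Q^β` and `ħ`: `F [i₁, …, i_n] β j` is the coefficient of `Q^β ħ^j` in `∂_{i_n} ⋯ ∂_{i₁} F` at
`t = 0`, that is `F = ∑ (1 / n!) F [i₁, …, i_n] t^{i₁} ⋯ t^{i_n}`. -/
abbrev Ser (B : ℕ) (Γ : Type) : Type := List (ℕ × Fin B) → Γ → ℤ → ℂ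

namespace Ser

variable {B : ℕ} {Γ : Type} [AddCommGroup Γ] (π : Fin B → ℕ)

/-- The Koszul sign; `π a` is the cohomological degree of the basis vector `a`. -/
def sg (i : ℕ × Fin B) (l : List (ℕ × Fin B)) : ℂ := (-1) ^ (π i.2 * (l.map fun j => π j.2).sum)

/-- The derivative `∂_i`. -/
def d (i : ℕ × Fin B) (F : Ser B Γ) : Ser B Γ := fun l => F (i :: l)

/-- Multiplication by the variable `t^i`. -/
noncomputable def t (i : ℕ × Fin B) (F : Ser B Γ) : Ser B Γ := fun l =>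
  ∑ s : Fin l.length, if l.get s = i then sg π i (l.take s) • F (l.eraseIdx s) else 0

/-- Multiplication by `ħ^n`. -/
def hb (n : ℤ) (F : Ser B Γ) : Ser B Γ := fun l β j => F l β (j - n)

/-- The product, determined by the constant terms and the Leibniz rule. -/
noncomputable def mul : List (ℕ × Fin B) → Ser B Γ → Ser B Γ → Γ → ℤ → ℂ
  | [], F, G => fun β j => ∑ᶠ x : Γ × ℤ, F [] x.1 x.2 * G [] (β - x.1) (j - x.2)
  | i :: l, F, G => mul l (d i F) G + mul l (fun l' => sg π i l' • F l') (d i G)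

open Classical in
/-- Powers. -/
noncomputable def pow (F : Ser B Γ) : ℕ → Ser B Γ
  | 0 => fun l β j => if l = [] ∧ β = 0 ∧ j = 0 then 1 else 0
  | n + 1 => fun l => mul π l F (pow F n)

/-- The exponential. -/
noncomputable def exp (F : Ser B Γ) : Ser B Γ := fun l β j =>
  ∑ᶠ n : ℕ, pow π F n l β j / n.factorial

end Ser

/-- Getzler's `[x]^k_i = e_{k+1-i}(x, x + 1, …, x + k)`, for `k = k' - 1`. -/
noncomputable def esy (k' i : ℕ) (x : ℂ) : ℂ :=
  (∏ j ∈ Finset.range k', (Polynomial.X + Polynomial.C (x + j))).coeff i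

namespace Tgt

variable [DecidableEq R] (T : Tgt R J K) (n : ℕ) {B : ℕ} (φ : Module.Basis (Fin B) ℂ (H T.X)) (p q : Fin B → ℕ)

/-- The total descendant potential `Z = exp (∑ ħ^(g-1) F_g)`. -/
noncomputable def potential : Ser B (BM T.X) :=
  Ser.exp (fun a => p a + q a) fun l β j =>
    if -1 ≤ j then T.gw (j + 1).toNat β (l.map fun i => (i.1, φ i.2)) else 0

/-- The derivative in the direction `τ_m(v)`. -/
noncomputable def dv (m : ℕ) (v : H T.X) (F : Ser B (BM T.X)) : Ser B (BM T.X) :=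
  ∑ b, φ.repr v b • Ser.d (m, b) F

/-- The Virasoro operator `L_k`, `k = k' - 1`, of a target of dimension `n`, for a basis `φ a` of
Hodge types `(p a, q a)`; `μ a = p a - n / 2`, `R = c₁(TX) ∪`, `η` is the Poincaré pairing. -/
noncomputable def L (k' : ℕ) (F : Ser B (BM T.X)) : Ser B (BM T.X) :=
  let π : Fin B → ℕ := fun a => p a + q a
  let μ : Fin B → ℂ := fun a => p a - n / 2
  let R := T.c1 n
  let η : Matrix (Fin B) (Fin B) ℂ := Matrix.of fun a b => T.int (φ a * φ b)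
  (∑ i ∈ Finset.range (k' + 1),
    ((fun l β j => ∑ᶠ m : ℕ, if i + 1 ≤ m + k' then ∑ a, esy k' i (μ a + m + 1 / 2) *
        Ser.t π (m, a) (T.dv φ (m + k' - (i + 1)) (R ^ i * φ a) F) l β j else 0) -
      esy k' i ((3 - n) / 2) • T.dv φ (k' - i) (R ^ i) F +
      (1 / 2 : ℂ) • Ser.hb 1 (∑ m ∈ Finset.range (k' - (i + 1)), ∑ a, ∑ b,
        ((-1) ^ (m + 1) * η⁻¹ a b * esy k' i (μ b - m - 1 / 2)) •
          T.dv φ (k' - (i + 2) - m) (R ^ i * φ b) (Ser.d (m, a) F)))) +
  (1 / 2 : ℂ) • Ser.hb (-1) (∑ a, ∑ b,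
    T.int (R ^ k' * φ a * φ b) • Ser.t π (0, a) (Ser.t π (0, b) F)) +
  (if k' = 1 then (∑ a, (-1) ^ π a) / 16 - (∑ a, (-1) ^ π a * μ a ^ 2) / 4 else 0 : ℂ) • F

end Tgt

end Vale.Agent.P269
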