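import Mathlib

/-!
# Nodal curves in a product of projective spaces

A curve in `∏ ℙ(ℂ^(M i))` is given by its multicone `C ⊆ V M = ∏ ℂ^(M i)`. Multihomogeneous
polynomials of degree `a` are the diagonal values `val μ` of multilinear forms `μ : Tens M a`.
-/

namespace Vale.Agent.P269

open Set Function Topology Filter

variable {ι : Type} [Fintype ι] (M : ι → ℕ)

/-- The vector space `∏ ℂ^(M i)`. -/
abbrev V : Type := ∀ i, Fin (M i) → ℂ

/-- Multilinear forms with one argument in `ℂ^(M (τ s))` for each `s`. -/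
abbrev Tn {σ : Type} [Fintype σ] (τ : σ → ι) : Type :=
  ContinuousMultilinearMap ℂ (fun s => Fin (M (τ s)) → ℂ) ℂ

/-- Multilinear forms with `a i` arguments in `ℂ^(M i)`. -/
abbrev Tens (a : ι → ℕ) : Type := Tn M (Sigma.fst : (Σ i, Fin (a i)) → ι)

variable {M}

/-- The value at `c` of the polynomial of multidegree `a` given by a multilinear form. -/
noncomputable def val {a : ι → ℕ} (μ : Tens M a) (c : V M) : ℂ := μ fun s => c s.1

/-- A holomorphic disc in the multicone `C` whose image in the factor `o` is immersed. -/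
structure IsBranch (o : ι) (C : Set (V M)) (γ : ℂ → V M) : Prop where
  holo : AnalyticAt ℂ γ 0
  mem : ∀ᶠ t in 𝓝 0, γ t ∈ C
  imm : LinearIndependent ℂ ![γ 0 o, deriv γ 0 o]

/-- Two branches through `c` with different tangent lines. -/
def IsCross (o : ι) (C : Set (V M)) (c : V M) (γ₁ γ₂ : ℂ → V M) : Prop :=
  IsBranch o C γ₁ ∧ IsBranch o C γ₂ ∧ γ₁ 0 = c ∧ γ₂ 0 = c ∧
    LinearIndependent ℂ ![c o, deriv γ₁ 0 o, deriv γ₂ 0 o]

/-- `c` is a node of the curve. -/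
def IsNode (o : ι) (C : Set (V M)) (c : V M) : Prop := ∃ γ₁ γ₂, IsCross o C c γ₁ γ₂

/-- `f` is a holomorphic section of the line bundle `O(a)` on the curve. -/
structure IsSec (o : ι) (C : Set (V M)) (a : ι → ℕ) (f : V M → ℂ) : Prop where
  cont : ContinuousOn f C
  hom : ∀ t : ι → ℂ, (∀ i, t i ≠ 0) → ∀ c ∈ C, f (t • c) = (∏ i, t i ^ a i) * f c
  holo : ∀ γ, IsBranch o C γ → AnalyticAt ℂ (f ∘ γ) 0

/-- `C` is the multicone over a closed, possibly disconnected, nodal curve (near each point one smooth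
branch or two branches with different tangents) of arithmetic genus `g` and multidegree `m`, on which
every `O(a)`, `a ≠ 0`, has `h⁰ = a · m + 1 - g` and only polynomial sections. -/
structure IsCurve (o : ι) (g : ℤ) (m : ι → ℤ) (C : Set (V M)) : Prop where
  ne_zero : ∀ c ∈ C, ∀ i, c i ≠ 0
  closed : ∀ c ∈ closure C, (∀ i, c i ≠ 0) → c ∈ C
  cone : ∀ t : ι → ℂ, (∀ i, t i ≠ 0) → ∀ c ∈ C, t • c ∈ C
  nodal : ∀ c ∈ C, ∃ γ₁ γ₂, (IsBranch o C γ₁ ∧ γ₁ 0 = c ∧ γ₂ = γ₁ ∨ IsCross o C c γ₁ γ₂) ∧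
    ∀ ε > 0, ∀ᶠ y in 𝓝[C] c, ∃ (t : ι → ℂ) (z : ℂ), ‖z‖ < ε ∧ (y = t • γ₁ z ∨ y = t • γ₂ z)
  normal : ∀ a ≠ 0, ∀ f, IsSec o C a f → ∃ μ : Tens M a, ∀ c ∈ C, f c = val μ c
  hilbert : ∀ a ≠ 0, (Module.finrank ℂ
    (Submodule.span ℂ (range fun (μ : Tens M a) (c : C) => val μ c)) : ℤ) = ∑ i, a i * m i + 1 - g

end Vale.Agent.P269
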