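import Vale.Agent.P269.Defs.Orb
import Vale.Agent.P269.Defs.Curve

/-!
# Targets, the global chart of the moduli space of stable maps, virtual class, invariants

A target is `X = {x ∈ U | F x = 0} / (ℂˣ)^R`. A map from a curve `C` to `X` consists of line bundles
`L_i`, `i : R`, on `C` and sections `x_j` of `L^(w j)` with values in `U` and `F x = 0`.
The stack of pointed nodal curves with line bundles `L_i` is presented as `base / G`: the curve is
embedded by bases of the sections of `A_none = (ω_log ⊗ L^θ)^k` and `A_i = A_none ⊗ L_i`.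
The moduli space of stable maps is `sol / G`, the zero set of the section `sct` over the smooth space
`base / G`, and the complex `[fields → obs]` is the standard relative obstruction theory. The virtual
class is the localised Euler class of `sct` in the bundle `obs` (the Behrend-Fantechi class of a
zero set in a smooth stack; a global Kuranishi chart).
-/

namespace Vale.Agent.P269

open P291Z Set Function Topology Filter MvPolynomial

/-- The presentation of a target as a quotient by the torus `(ℂˣ)^R`, with coordinates indexed by `J`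
and equations indexed by `K`. -/
structure Tgt (R J K : Type) where
  /-- weights of the coordinates -/
  w : J → R → ℤ
  /-- the semistable locus -/
  U : Set (J → ℂ)
  /-- the equations -/
  F : K → MvPolynomial J ℂ
  /-- three times an ample character -/
  θ : R → ℤ

variable {R J K : Type} [Fintype R] [Fintype J] [Fintype K]

namespace Tgt

variable (T : Tgt R J K)

/-- The cone over the target. -/
def cone : Set (J → ℂ) := {x | x ∈ T.U ∧ ∀ k, eval x (T.F k) = 0}

/-- The torus action. -/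
noncomputable def act (t : R → ℂ) (x : J → ℂ) : J → ℂ :=
  fun j => (∏ i, t i ^ T.w j i) * x j

/-- The target. -/
abbrev X : Type := Quo T.act T.cone

end Tgt

/-- The numerical data of a chart. -/
structure Ch (ι J : Type) where
  /-- dimensions of the factors -/
  M : ι → ℕ
  /-- the factor of `(ω_log ⊗ L^θ)^k` -/
  o : ι
  /-- arithmetic genus -/
  g : ℤ
  /-- multidegree of the embedded curve -/
  m : ι → ℤ
  /-- degrees in which the Hilbert points are taken -/
  a : Option J → ι → ℕ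
  /-- `h⁰(O(a l))` -/
  h : Option J → ℕ
  /-- the power `k` -/
  k : ℕ
  /-- `O(a none) = ω_log^(-k) ⊗ A_o ⊗ L^(-k θ) ⊗ O(2 k e_o) ⊗ O(bω)` -/
  bω : ι → ℕ
  /-- `O(a (some j)) = L^(w j) ⊗ O(b j)` -/
  b : J → ι → ℕ

namespace Ch

variable {ι : Type} [Fintype ι] [DecidableEq ι] (ch : Ch ι J) (ν : Type) [Fintype ν]

/-- The space `ℂ^(h l)`, identified with `H⁰(C, O(a l))` by the Hilbert point. -/
abbrev E (l : Option J) : Type := Fin (ch.h l) → ℂ

/-- Points `c` of `V` with a linear form `u l` on each `E l`. -/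
abbrev Pt : Type := V ch.M × ∀ l, ch.E l →L[ℂ] ℂ

/-- The arguments of the test forms for `Ξ`: `k` pairs of vectors of the factor `o` and `bω i`
vectors of the factor `i`. -/
def slot : (Fin ch.k × Bool) ⊕ (Σ i, Fin (ch.bω i)) → ι := Sum.elim (fun _ => ch.o) Sigma.fst

/-- The ambient vector space: Hilbert points `Q`, marked points `p`, the tensor `Ξ`, thickened fields
`X`. -/
def W : Type := (∀ l, Tens ch.M (ch.a l) →L[ℂ] ch.E l) × (ν → V ch.M) ×
  (Tn ch.M ch.slot →L[ℂ] ch.E none) × ∀ j, Tens ch.M (ch.b j) →L[ℂ] ch.E (some j)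

noncomputable instance : NormedAddCommGroup (ch.W ν) :=
  inferInstanceAs (NormedAddCommGroup (_ × _ × _ × _))

noncomputable instance : NormedSpace ℂ (ch.W ν) := inferInstanceAs (NormedSpace ℂ (_ × _ × _ × _))

/-- The algebra whose unit group `G` changes the bases and rescales the marked points. -/
abbrev A : Type :=
  (∀ i, (Fin (ch.M i) → ℂ) →L[ℂ] (Fin (ch.M i) → ℂ)) × (∀ l, ch.E l →L[ℂ] ch.E l) × (ν → ι → ℂ)

variable {ch ν}

/-- The Hilbert points: the restriction maps from forms of degree `a l` to `H⁰(C, O(a l)) = E l`. -/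
def W.Q (x : ch.W ν) (l : Option J) : Tens ch.M (ch.a l) →L[ℂ] ch.E l := x.1 l

/-- The marked points. -/
def W.p (x : ch.W ν) : ν → V ch.M := x.2.1

/-- The tensor of the isomorphism `A_o = (ω_log ⊗ L^θ)^k`. -/
def W.Ξ (x : ch.W ν) : Tn ch.M ch.slot →L[ℂ] ch.E none := x.2.2.1

/-- The thickened fields `X_j : H⁰(ℙ, O(b j)) → H⁰(C, L^(w j) ⊗ O(b j))`. -/
def W.X (x : ch.W ν) (j : J) : Tens ch.M (ch.b j) →L[ℂ] ch.E (some j) :=
  x.2.2.2 j

/-- Linear substitution in multilinear forms. -/
noncomputable def sub (s : ch.A ν) {σ : Type} [Fintype σ] (τ : σ → ι) :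
    Tn ch.M τ →L[ℂ] Tn ch.M τ :=
  ContinuousMultilinearMap.compContinuousLinearMapL fun i => s.1 (τ i)

/-- The action on the ambient space. -/
noncomputable def act (s : ch.A ν) (x : ch.W ν) : ch.W ν :=
  (fun l => s.2.1 l ∘L x.Q l ∘L sub s _, fun n i => s.2.2 n i • s.1 i (x.p n i),
    s.2.1 none ∘L x.Ξ ∘L sub s _, fun j => s.2.1 (some j) ∘L x.X j ∘L sub s _)

/-- The points `c` of the multicone over the curve with Hilbert points `Q`, together with the
evaluations `u l` at `c` of the sections of `O(a l)`. -/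
def gr (x : ch.W ν) : Set ch.Pt :=
  {z | (∀ i, z.1 i ≠ 0) ∧ ∀ l μ, z.2 l (x.Q l μ) = val μ z.1}

/-- The multicone over the curve. -/
def crv (x : ch.W ν) : Set (V ch.M) := Prod.fst '' gr x

/-- The value of a test form on `(c ∧ v)^k ⊗ c^bω`. -/
noncomputable def wedge (μ : Tn ch.M ch.slot) (c v : V ch.M) : ℂ :=
  ∑ ε : Fin ch.k → Bool, (∏ i, if ε i then -1 else 1) *
    μ (Sum.rec (fun s => if ε s.1 = s.2 then c ch.o else v ch.o) fun s => c s.1)

open Classical in
/-- Along the branch `γ`, the tensor `Ξ` is `(γ ∧ ξ)^k` for a `k`-fold vector field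
`ξ^k = f(t) (∂_t)^k`, or `f(t) (t ∂_t)^k` at a node or a marked point, with `f(0) = ρ`. -/
def Lead (x : ch.W ν) (γ : ℂ → V ch.M) (ρ : ℂ) : Prop :=
  ∃ f : ℂ → ℂ, AnalyticAt ℂ f 0 ∧ f 0 = ρ ∧ ∀ᶠ t in 𝓝 0, ∀ u, (γ t, u) ∈ gr x → ∀ μ,
    u none (x.Ξ μ) = f t *
      (if IsNode ch.o (crv x) (γ 0) ∨ ∃ n, ∃ s : ι → ℂ, γ 0 = s • x.p n then t else 1) ^ ch.k *
      wedge μ (γ t) (deriv γ t)

variable (ch ν) in
/-- The smooth space: `Q` are the framed Hilbert points of a nodal curve, the marked points are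
distinct smooth points, `Ξ` is a nowhere vanishing section of `ω_log^(-k) ⊗ A_o ⊗ L^(-k θ)`
(logarithmic vector fields with opposite residues at the nodes); the fields are arbitrary. -/
def base : Set (ch.W ν) :=
  {x | (∀ l, Surjective (x.Q l)) ∧ (∀ l μ, (∀ c ∈ crv x, val μ c = 0) → x.Q l μ = 0) ∧
    IsCurve ch.o ch.g ch.m (crv x) ∧
    (∀ n, x.p n ∈ crv x ∧ ¬IsNode ch.o (crv x) (x.p n)) ∧
    (∀ n n', ∀ s : ι → ℂ, x.p n = s • x.p n' → n = n') ∧
    (∀ γ, IsBranch ch.o (crv x) γ → ∃ ρ ≠ 0, Lead x γ ρ) ∧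
    ∀ c γ₁ γ₂ ρ₁ ρ₂, IsCross ch.o (crv x) c γ₁ γ₂ → Lead x γ₁ ρ₁ → Lead x γ₂ ρ₂ →
      ρ₁ = (-1) ^ ch.k * ρ₂}

variable (T : Tgt R J K) (e : K → ι → ℕ)

variable (ch ν) in
/-- The framed stable maps: the field `X_j` is `μ ↦ x_j μ` for sections `x_j` with values in the cone
over the target. -/
def sol : Set (ch.W ν) :=
  {x | x ∈ ch.base ν ∧ ∀ z ∈ gr x, ∃ y ∈ T.cone, ∀ j μ, z.2 (some j) (x.X j μ) = y j * val μ z.1}

variable (ch ν) in
/-- The moduli space of stable maps with possibly disconnected domain. -/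
abbrev Mod : Type := Quo act (ch.sol ν T)

variable (ch K) in
/-- Functions of a point `(c, u)` and of test forms. -/
abbrev P : Type := (∀ j, ch.Pt → Tens ch.M (ch.b j) × Tens ch.M (ch.b j) → ℂ) ×
  (K → ch.Pt → (∀ i, (Fin (ch.M i) → ℂ) →L[ℂ] ℂ) → ℂ)

variable (ch) in
/-- The finite dimensional space of the polynomial functions of the appropriate degrees; `e k` is the
degree of the test forms for the equation `k`. -/
noncomputable def pol : Submodule ℂ (ch.P K) :=
  (Submodule.pi univ fun j => Submodule.span ℂ {f | ∃ (l l' : Tens ch.M (ch.b j) →L[ℂ] ℂ)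
      (μ : Tens ch.M (ch.b j)) (y : ch.E (some j)),
        f = fun z m => l m.1 * l' m.2 * val μ z.1 * z.2 (some j) y}).prod
    (Submodule.pi univ fun k => Submodule.span ℂ {f | ∃ α ∈ (T.F k).support,
      ∃ (v : ∀ s : Σ i, Fin (e k i), Fin (ch.M s.1) → ℂ)
        (y : ∀ s : Σ j, Fin (α j), ch.E (some s.1))
        (μ : Tens ch.M fun i => e k i - ∑ j, α j * ch.b j i),
        f = fun z ζ => (∏ s, ζ s.1 (v s)) * (∏ s, z.2 (some s.1) (y s)) * val μ z.1})

/-- The action on these functions. -/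
noncomputable def ρ (s : ch.A ν) (κ : ch.P K) : ch.P K :=
  let z' : ch.Pt → ch.Pt := fun z =>
    (fun i => Ring.inverse (s.1 i) (z.1 i), fun l => z.2 l ∘L s.2.1 l)
  (fun j z m => κ.1 j (z' z) (sub s _ m.1, sub s _ m.2),
    fun k z ζ => κ.2 k (z' z) fun i => ζ i ∘L s.1 i)

/-- The form `∏ ζ_i^(b i)`. -/
noncomputable def pw (ζ : ∀ i, (Fin (ch.M i) → ℂ) →L[ℂ] ℂ) (b : ι → ℕ) : Tens ch.M b :=
  (ContinuousMultilinearMap.mkPiAlgebra ℂ _ ℂ).compContinuousLinearMap fun s => ζ s.1

/-- The homogenised equation: for `y j = x j * ζ(c)^(b j)` it is `F k (x) * ζ(c)^(e k)`. -/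
noncomputable def hmg (k : K) (ζ : ∀ i, (Fin (ch.M i) → ℂ) →L[ℂ] ℂ) (c : V ch.M)
    (y : J → ℂ) : ℂ :=
  ∑ α ∈ (T.F k).support, coeff α (T.F k) * (∏ j, y j ^ α j) *
    ∏ i, ζ i (c i) ^ (e k i - ∑ j, α j * ch.b j i)

/-- The section whose zeros are the solutions: the Koszul relations `μ' X_j(μ) - μ X_j(μ')` and the
equations `F_k(X)`. -/
noncomputable def sct (x : ch.W ν) : ch.P K :=
  (fun j z m => val m.2 z.1 * z.2 (some j) (x.X j m.1) - val m.1 z.1 * z.2 (some j) (x.X j m.2),
    fun k z ζ => hmg T e k ζ z.1 fun j => z.2 (some j) (x.X j (pw ζ _)))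

/-- The functions vanishing on the curve. -/
def van (x : ch.W ν) : Set (ch.P K) :=
  {κ | κ ∈ ch.pol T e ∧ ∀ z ∈ gr x, (∀ j, κ.1 j z = 0) ∧ ∀ k, κ.2 k z = 0}

/-- The obstruction space at a solution (modulo `van x`): the sections of the image of the
differential of the equations, the quotient of the sheaf of fields by the pull-back of the tangent
bundle of the cone over the target. -/
def obs (x : ch.W ν) : Set (ch.P K) :=
  {κ | κ ∈ ch.pol T e ∧ ∀ z ∈ gr x, ∃ y : ∀ j, Tens ch.M (ch.b j) →L[ℂ] ℂ,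
    (∀ j m, κ.1 j z m = val m.2 z.1 * y j m.1 - val m.1 z.1 * y j m.2) ∧
    ∀ k ζ, κ.2 k z ζ = deriv (fun ε : ℂ => hmg T e k ζ z.1
      fun j => z.2 (some j) (x.X j (pw ζ _)) + ε * y j (pw ζ _)) 0}

variable (ch ν) in
/-- `v` is the virtual fundamental class: on an invariant open neighbourhood `S` of the solutions in
`base`, the obstruction bundle is extended as `pol / N` for a continuous invariant family `N` of
subspaces complementary to `obs`, and `v` is the fundamental class of `S / G` capped with the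
pull-back of the Thom class by the section `sct`, whose zero set is the moduli space. -/
def IsVir (v : BM (ch.Mod ν T)) : Prop :=
  ∃ (S : Set (ch.W ν)) (hS : ch.sol ν T ⊆ S) (N : ch.W ν → Submodule ℂ (ch.P K)) (r : ℕ)
    (β : BM (Quo act S)) (t : Coch (Tot act ρ S (fun _ => ch.pol T e) N)),
    (∃ O, IsOpen O ∧ S = ch.base ν ∩ O) ∧ (∀ s, IsUnit s → ∀ x ∈ S, act s x ∈ S) ∧
    LocallyCompactSpace S ∧ T2Space (Quo act S) ∧ T2Space (Tot act ρ S (fun _ => ch.pol T e) N) ∧
    (∀ x ∈ S, van T e x ⊆ N x ∧ N x ≤ ch.pol T e ∧ Module.finrank ℂ (N x) = r ∧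
      (sct T e x ∈ N x → x ∈ ch.sol ν T) ∧ ∀ s, IsUnit s → ∀ κ ∈ N x, ρ s κ ∈ N (act s x)) ∧
    IsClosed {z : S × ch.P K | z.2 ∈ N z.1} ∧
    (∀ x ∈ ch.sol ν T, (∀ κ ∈ obs T e x, κ ∈ N x → κ ∈ van T e x) ∧
      ∀ κ ∈ ch.pol T e, ∃ κ' ∈ obs T e x, κ - κ' ∈ N x) ∧
    IsFund act S β ∧ IsThomOf act ρ S (fun _ => ch.pol T e) N t ∧
    Gys (Quo.incl act hS) (pull (sec act ρ S (fun _ => ch.pol T e) N (sct T e)) t) β v

variable {T}

/-- The value of a stable map at a point of its domain. -/
noncomputable def map (x : ch.sol ν T) (c : crv x.1) : T.X :=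
  Quo.mk T.act ⟨(x.2.2 _ c.2.choose_spec.1).choose, (x.2.2 _ c.2.choose_spec.1).choose_spec.1⟩

/-- The evaluation map at a marked point. -/
noncomputable def evl (n : ν) (z : ch.Mod ν T) : T.X :=
  map z.out ⟨z.out.1.p n, (z.out.2.1.2.2.2.1 n).1⟩

/-- The stable map has class `β`: the push-forward of the fundamental class of the curve. -/
def HasClass (x : ch.sol ν T) (β : BM T.X) : Prop :=
  ∃ γ, IsFund (fun (t : ι → ℂ) (c : V ch.M) => t • c) (crv x.1) γ ∧
    Push (fun z => map x (Quo.out z)) γ β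

/-- A cocycle representing `ψ_n = c₁(T^*) = - c₁(T)`, `T` the tangent line of the curve at the marked
point: the tangent space of the multicone modulo the directions of the torus orbit. -/
noncomputable def psi (n : ν) : Coch (ch.Mod ν T) :=
  -eulerC act (fun s (v : V ch.M) i => s.2.2 n i • s.1 i (v i)) (ch.sol ν T)
    (fun x => Submodule.span ℂ {v | ∃ γ : ℂ → V ch.M, AnalyticAt ℂ γ 0 ∧
      (∀ᶠ t in 𝓝 0, γ t ∈ crv x) ∧ γ 0 = x.p n ∧ v = deriv γ 0})
    fun x => Submodule.span ℂ (range fun i => Pi.single i (x.p n i))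

end Ch

open Classical in
/-- The indicator function of a subset as a cochain of degree zero. -/
noncomputable def ind {Y : Type} (B : Set Y) : Coch Y :=
  ⟨fun l => if ∃ y ∈ B, l = [y] then 1 else 0, by simp, 1, fun l hl => by
    refine if_neg ?_
    rintro ⟨y, -, rfl⟩
    simp at hl⟩

/-- A cocycle representing a class. -/
noncomputable def rep {Y : Type} [TopologicalSpace Y] (c : H Y) : Coch Y :=
  (Classical.epsilon fun a : Zs Y => H.mk a = c).1

namespace Tgt

variable [DecidableEq R] (T : Tgt R J K)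

/-- The multidegree of `L^w = ⊗ (A_i ⊗ A_none⁻¹)^(w i)`. -/
def hat (w : R → ℤ) : Option R → ℤ := fun o => o.elim (-∑ i, w i) w

/-- The chart with parameters `k`, `D` for genus `g`, `n` marked points and degrees `d i` of `L_i`. -/
noncomputable def chart (g : ℤ) (n : ℕ) (d : R → ℤ) (k D : ℕ) : Ch (Option R) J :=
  let m : Option R → ℤ := fun o => k * (2 * g - 2 + n + ∑ i, T.θ i * d i) + o.elim 0 d
  let b : J → Option R → ℕ := fun j o =>
    o.elim (1 + ∑ i, (T.w j i).natAbs) fun i => (-T.w j i).toNat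
  let a : Option J → Option R → ℕ := fun l o =>
    l.elim D fun j => (hat (T.w j) o + b j o).toNat
  { M := fun o => (m o + 1 - g).toNat
    o := none
    g := g
    m := m
    a := a
    h := fun l => (∑ o, a l o * m o + 1 - g).toNat
    k := k
    bω := fun o => (D - o.elim (2 * k + 1) 0 + k * hat T.θ o : ℤ).toNat
    b := b }

/-- The Gromov-Witten invariant `⟨τ_{m₁}(c₁) ⋯ τ_{m_n}(c_n)⟩_{g, β}` for `l = [(m₁, c₁), …]`: the
integral of `∏ ψ_i^{m_i} ev_i^* c_i` against the virtual class of the open and closed part of the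
moduli space where the domain is connected and the class is `β`, in the charts with large `k`, `D`
(only the degree `d` of `β` contributes to the sum). -/
noncomputable def gw (g : ℕ) (β : BM T.X) (l : List (ℕ × H T.X)) : ℂ :=
  ∑ᶠ d : R → ℤ, Classical.epsilon fun z : ℂ => ∀ᶠ k in atTop, ∀ᶠ D in atTop,
    ∃ v, (T.chart g l.length d k D).IsVir (Fin l.length) T
        (fun q o => (T.F q).totalDegree * ∑ j, (T.chart g l.length d k D).b j o) v ∧
      z = ev v (ind {y | IsConnected (Ch.crv (Quo.out y).1) ∧ Ch.HasClass (Quo.out y) β} *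
        (List.ofFn fun i => Ch.psi i ^ (l.get i).1 * pull (Ch.evl i) (rep (l.get i).2)).prod)

end Tgt

end Vale.Agent.P269
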